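import Vale.Agent.P371EF.Lin

/-!
Extension of systems of eigenfunctions.
-/

namespace Vale.Agent.P371EF

open MeasureTheory Filter Topology Matrix Set
open Vale.Agent.P371 Vale.Agent.P371.G Vale.Agent.P371.PI Vale.Agent.P371E
open scoped ComplexOrder

variable {m : ℕ} {W : ℝ → Mat m m}

theorem sys_snoc {n : ℕ} {lam : Fin n → ℝ} {f f' : Fin n → ℝ → Vec m} (hs : Sys W lam f f')
    {μ : ℝ} {h h' : ℝ → Vec m} (hμ : μ < 0) (hh : IsEigenfunction W μ h h') (h1 : ip h h = 1)
    (h0 : ∀ i, ip (f i) h = 0) :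
    Sys W (Fin.snoc (α := fun _ => ℝ) lam μ) (Fin.snoc (α := fun _ => ℝ → Vec m) f h)
      (Fin.snoc (α := fun _ => ℝ → Vec m) f' h') where
  neg j := by
    refine Fin.lastCases ?_ (fun j => ?_) j
    · simpa only [Fin.snoc_last] using hμ
    · simpa only [Fin.snoc_castSucc] using hs.neg j
  eig j := by
    refine Fin.lastCases ?_ (fun j => ?_) j
    · simpa only [Fin.snoc_last] using hh
    · simpa only [Fin.snoc_castSucc] using hs.eig j
  on i j := by
    refine Fin.lastCases ?_ (fun i => ?_) i <;> refine Fin.lastCases ?_ (fun j => ?_) j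
    · simp only [Fin.snoc_last, if_true]
      exact h1
    · simp only [Fin.snoc_last, Fin.snoc_castSucc, (Fin.castSucc_lt_last j).ne', if_false]
      change ip h (f j) = 0
      rw [← ip_conj, h0, map_zero]
    · simp only [Fin.snoc_last, Fin.snoc_castSucc, (Fin.castSucc_lt_last i).ne, if_false]
      exact h0 i
    · simp only [Fin.snoc_castSucc, Fin.castSucc_inj]
      exact hs.on i j

/-- one step: either `g` lies in the span or the system extends by one member -/
theorem step (hW : Frm W) (hH : ∀ x, (W x).IsHermitian) {n : ℕ} {lam : Fin n → ℝ}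
    {f f' : Fin n → ℝ → Vec m} (hs : Sys W lam f f') {μ : ℝ} {g g' : ℝ → Vec m}
    (hg : IsEigenfunction W μ g g') (hn : ip g g = 1) :
    1 ≤ ∑ i, ‖ip (f i) g‖ ^ 2 ∨ ∃ h h' : ℝ → Vec m, IsEigenfunction W μ h h' ∧ ip h h = 1 ∧
      (∀ i, ip (f i) h = 0) ∧ 1 ≤ ∑ i, ‖ip (f i) g‖ ^ 2 + ‖ip h g‖ ^ 2 := by
  have hf : ∀ i, MemLp (f i) 2 volume := fun i => (hs.eig i).isH1.memLp
  have hgm := hg.isH1.memLp
  set s : ℝ := 1 - ∑ i, ‖ip (f i) g‖ ^ 2 with hsdef
  rcases le_or_gt s 0 with h | h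
  · left
    linarith
  right
  set c : Fin n → ℂ := fun i => ip (f i) g with hc
  have he : IsEigenfunction W μ (prj f c g) (prj f' c g') :=
    eig_add hW hg (eig_sum hW Finset.univ fun i => eig_smul_of (hs.eig i) (-c i) fun hi =>
      eq_of_ip_ne hH (hs.eig i) hg (neg_ne_zero.mp hi))
  have hq : 0 < √s := Real.sqrt_pos.mpr h
  have hqq : √s * √s = s := Real.mul_self_sqrt h.le
  have hqc : ((√s : ℝ) : ℂ) ≠ 0 := by exact_mod_cast hq.ne'
  have hsc : (s : ℂ) = ((√s : ℝ) : ℂ) * ((√s : ℝ) : ℂ) := by exact_mod_cast hqq.symm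
  refine ⟨fun x => (((√s)⁻¹ : ℝ) : ℂ) • prj f c g x, fun x => (((√s)⁻¹ : ℝ) : ℂ) • prj f' c g' x,
    eig_smul he _, ?_, fun i => ?_, ?_⟩
  · rw [ip_smul_left, ip_smul_right, ip_prj_prj hf hs.on hgm hn, Complex.conj_ofReal, ← hsdef,
      hsc]
    push_cast
    field_simp
  · rw [ip_smul_right, ip_prj_zero hf hs.on hgm, mul_zero]
  · have e : ip (fun x => (((√s)⁻¹ : ℝ) : ℂ) • prj f c g x) g = ((√s : ℝ) : ℂ) := by
      rw [ip_smul_left, ← ip_conj g, ip_prj_self hf hgm hn, Complex.conj_ofReal,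
        Complex.conj_ofReal, ← hsdef, hsc]
      push_cast
      field_simp
    rw [e, Complex.norm_real, Real.norm_eq_abs, sq_abs, Real.sq_sqrt h.le]
    linarith

theorem ext_aux (hW : Frm W) (hH : ∀ x, (W x).IsHermitian) {N M : ℕ} {lam0 : Fin N → ℝ}
    {f0 f0' : Fin N → ℝ → Vec m} {mu : Fin M → ℝ} {g g' : Fin M → ℝ → Vec m}
    (h0 : Sys W lam0 f0 f0') (hg : Sys W mu g g') (s : Finset (Fin M)) :
    ∃ (L : ℕ) (lam : Fin (N + L) → ℝ) (f f' : Fin (N + L) → ℝ → Vec m), Sys W lam f f' ∧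
      (∀ j, lam (Fin.castAdd L j) = lam0 j ∧ f (Fin.castAdd L j) = f0 j ∧
        f' (Fin.castAdd L j) = f0' j) ∧ ∀ j ∈ s, 1 ≤ ∑ i, ‖ip (f i) (g j)‖ ^ 2 := by
  induction s using Finset.induction_on with
  | empty => exact ⟨0, lam0, f0, f0', h0, fun j => ⟨rfl, rfl, rfl⟩, fun j hj => by simp at hj⟩
  | insert a s ha ih =>
    obtain ⟨L, lam, f, f', hs, he, hj⟩ := ih
    have hn : ip (g a) (g a) = 1 := by
      have := hg.on a a
      rwa [if_pos rfl] at this
    rcases step hW hH hs (hg.eig a) hn with h | ⟨h, h', hh, h1, h2, h3⟩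
    · refine ⟨L, lam, f, f', hs, he, fun j hj' => ?_⟩
      rcases Finset.mem_insert.mp hj' with rfl | hj'
      · exact h
      · exact hj j hj'
    · refine ⟨L + 1, _, _, _, sys_snoc hs (hg.neg a) hh h1 h2, fun j => ?_, fun j hj' => ?_⟩
      · have e : Fin.castAdd (L + 1) j = Fin.castSucc (Fin.castAdd L j) := rfl
        rw [e]
        simp only [Fin.snoc_castSucc]
        exact he j
      · have e : ∑ i : Fin (N + L + 1),
            ‖ip (Fin.snoc (α := fun _ => ℝ → Vec m) f h i) (g j)‖ ^ 2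
            = ∑ i, ‖ip (f i) (g j)‖ ^ 2 + ‖ip h (g j)‖ ^ 2 := by
          rw [Fin.sum_univ_castSucc]
          simp only [Fin.snoc_castSucc, Fin.snoc_last]
        refine le_trans ?_ (le_of_eq e.symm)
        rcases Finset.mem_insert.mp hj' with rfl | hj'
        · exact h3
        · have := hj j hj'
          have h4 : 0 ≤ ‖ip h (g j)‖ ^ 2 := by positivity
          linarith

theorem ext_of (hF : FORM) : EXT := by
  intro p γ hp m W hW N M lam0 f0 f0' mu g g' h0 hg
  have hH : ∀ x, (W x).IsHermitian := fun x => (hW.posSemidef x).isHermitian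
  obtain ⟨L, lam, f, f', hs, he, hj⟩ := ext_aux (hF p hp m W hW).1 hH h0 hg Finset.univ
  refine ⟨L, lam, f, f', hs, he, ?_⟩
  have hw : ∀ i j, ‖ip (f i) (g j)‖ ^ 2 * |mu j| ^ γ = ‖ip (f i) (g j)‖ ^ 2 * |lam i| ^ γ := by
    intro i j
    by_cases h : ip (f i) (g j) = 0
    · simp [h]
    · rw [eq_of_ip_ne hH (hs.eig i) (hg.eig j) h]
  calc ∑ j, |mu j| ^ γ ≤ ∑ j, (∑ i, ‖ip (f i) (g j)‖ ^ 2) * |mu j| ^ γ := by
        refine Finset.sum_le_sum fun j _ => ?_
        exact le_mul_of_one_le_left (by positivity) (hj j (Finset.mem_univ j))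
    _ = ∑ i, (∑ j, ‖ip (g j) (f i)‖ ^ 2) * |lam i| ^ γ := by
        simp only [Finset.sum_mul]
        rw [Finset.sum_comm]
        refine Finset.sum_congr rfl fun i _ => Finset.sum_congr rfl fun j _ => ?_
        rw [hw, ← ip_conj (f i) (g j), Complex.norm_conj]
    _ ≤ ∑ i, |lam i| ^ γ := by
        refine Finset.sum_le_sum fun i _ => ?_
        refine mul_le_of_le_one_left (by positivity) ?_
        refine bessel (fun j => (hg.eig j).isH1.memLp) hg.on (hs.eig i).isH1.memLp ?_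
        have := hs.on i i
        rwa [if_pos rfl] at this

end Vale.Agent.P371EF
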