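import Vale.Agent.P371EF.Lin

/-!
The equality cases, from the blocks.
-/

namespace Vale.Agent.P371EF

open MeasureTheory Filter Topology Matrix Set
open Vale.Agent.P371 Vale.Agent.P371.G Vale.Agent.P371.PI Vale.Agent.P371E
open scoped ComplexOrder

variable {m : ℕ} {W : ℝ → Mat m m}

theorem sys_le {γ : ℝ} {N : ℕ} {lam : Fin N → ℝ} {f f' : Fin N → ℝ → Vec m}
    (hs : Sys W lam f f') : ENNReal.ofReal (∑ j, |lam j| ^ γ) ≤ rieszMean γ W := by
  rw [ENNReal.ofReal_sum_of_nonneg (fun j _ => by positivity)]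
  unfold rieszMean
  exact le_iSup_of_le N <| le_iSup_of_le lam <| le_iSup_of_le f <| le_iSup_of_le f' <|
    le_iSup_of_le (fun j => ⟨hs.neg j, hs.eig j⟩) <| le_iSup_of_le hs.on le_rfl

theorem le_of_sys {γ S : ℝ} (h : ∀ (N : ℕ) (lam : Fin N → ℝ) (f f' : Fin N → ℝ → Vec m),
    Sys W lam f f' → ∑ j, |lam j| ^ γ ≤ S) : rieszMean γ W ≤ ENNReal.ofReal S := by
  unfold rieszMean
  refine iSup_le fun N => iSup_le fun lam => iSup_le fun f => iSup_le fun f' => iSup_le fun h1 =>
    iSup_le fun ho => ?_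
  rw [← ENNReal.ofReal_sum_of_nonneg (fun j _ => by positivity)]
  exact ENNReal.ofReal_le_ofReal (h N lam f f' ⟨fun j => (h1 j).1, fun j => (h1 j).2, ho⟩)

theorem sys_comp {N n : ℕ} {lam : Fin N → ℝ} {f f' : Fin N → ℝ → Vec m} (hs : Sys W lam f f')
    {e : Fin n → Fin N} (he : Function.Injective e) :
    Sys W (fun j => lam (e j)) (fun j => f (e j)) (fun j => f' (e j)) where
  neg j := hs.neg _
  eig j := hs.eig _
  on i j := by
    have := hs.on (e i) (e j)
    simpa only [he.eq_iff] using this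

theorem II_nonneg {γ : ℝ} (hW : IsPotential (γ + 1 / 2) W) : 0 ≤ II γ W :=
  integral_nonneg fun x => trPow_nonneg' (hW.posSemidef x) _

/-- in the case of equality there is a finite optimal system -/
theorem opt_sys (hX : EXC) (hE : EXT) {γ : ℝ} (h1 : 1 / 2 < γ) (h2 : γ < 3 / 2)
    (hW : IsPotential (γ + 1 / 2) W) (hq : rieszMean γ W = ENNReal.ofReal (Cg γ * II γ W)) :
    ∃ (N : ℕ) (lam : Fin N → ℝ) (f f' : Fin N → ℝ → Vec m), N ≤ m ∧ Sys W lam f f' ∧
      ∑ j, |lam j| ^ γ = Cg γ * II γ W := by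
  classical
  have hp : (1 : ℝ) < γ + 1 / 2 := by linarith
  have hS : 0 ≤ Cg γ * II γ W := mul_nonneg (Cg_pos h1).le (II_nonneg hW)
  set P : ℕ → Prop := fun N => ∃ (lam : Fin N → ℝ) (f f' : Fin N → ℝ → Vec m), Sys W lam f f'
    with hP
  have hb : ∀ N, P N → N ≤ m := by
    rintro N ⟨lam, f, f', hs⟩
    by_contra hN
    have hN' : m + 1 ≤ N := by omega
    have h0 := sys_comp hs (Fin.castLE_injective hN')
    obtain ⟨δ, hδ, hd⟩ := hX γ h1 h2 m W hW _ _ _ h0
    have hall : ∀ (M : ℕ) (mu : Fin M → ℝ) (g g' : Fin M → ℝ → Vec m), Sys W mu g g' →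
        ∑ j, |mu j| ^ γ ≤ Cg γ * II γ W - δ := by
      intro M mu g g' hg
      obtain ⟨L, lam1, f1, f1', hs1, he, hle⟩ := hE _ γ hp m W hW _ _ _ _ _ _ _ _ h0 hg
      exact hle.trans (hd L lam1 f1 f1' hs1 he)
    have h3 := le_of_sys hall
    have h4 : 0 ≤ Cg γ * II γ W - δ :=
      (Finset.sum_nonneg fun j _ => by positivity).trans (hall _ _ _ _ hs)
    rw [hq, ENNReal.ofReal_le_ofReal_iff h4] at h3
    linarith
  have hP0 : P 0 := ⟨Fin.elim0, Fin.elim0, Fin.elim0, fun j => j.elim0, fun j => j.elim0,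
    fun j => j.elim0⟩
  have hN := Nat.findGreatest_spec (P := P) (Nat.zero_le m) hP0
  set N := Nat.findGreatest P m with hNdef
  have hmax : ∀ M, P M → M ≤ N := fun M hM => Nat.le_findGreatest (hb M hM) hM
  obtain ⟨lam, f, f', hs⟩ := hN
  refine ⟨N, lam, f, f', hb N ⟨lam, f, f', hs⟩, hs, le_antisymm ?_ ?_⟩
  · have := sys_le (γ := γ) hs
    rwa [hq, ENNReal.ofReal_le_ofReal_iff hS] at this
  · have hall : ∀ (M : ℕ) (mu : Fin M → ℝ) (g g' : Fin M → ℝ → Vec m), Sys W mu g g' →
        ∑ j, |mu j| ^ γ ≤ ∑ j, |lam j| ^ γ := by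
      intro M mu g g' hg
      obtain ⟨L, lam1, f1, f1', hs1, he, hle⟩ := hE _ γ hp m W hW _ _ _ _ _ _ _ _ hs hg
      have hL := hmax _ ⟨lam1, f1, f1', hs1⟩
      obtain rfl : L = 0 := by omega
      refine hle.trans (le_of_eq ?_)
      exact Finset.sum_congr rfl fun j _ => by rw [← (he j).1]; rfl
    have h3 := le_of_sys hall
    rwa [hq, ENNReal.ofReal_le_ofReal_iff (Finset.sum_nonneg fun j _ => by positivity)] at h3

/-- an isometry extends to a unitary matrix -/
theorem unit_ext {N : ℕ} (hN : N ≤ m) {Y : Mat m N} (hY : Yᴴ * Y = 1) :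
    ∃ U : Mat m m, U ∈ Matrix.unitaryGroup (Fin m) ℂ ∧ ∀ i j, U i (Fin.castLE hN j) = Y i j := by
  classical
  set v : Fin m → Vec m := fun j =>
    if h : j.val < N then WithLp.toLp 2 (fun i => Y i ⟨j.val, h⟩) else 0 with hv
  have hvc : ∀ j : Fin N, v (Fin.castLE hN j) = WithLp.toLp 2 (fun i => Y i j) := fun j => by
    simp only [hv, Fin.val_castLE, j.isLt, dif_pos]
  have ho : Orthonormal ℂ (Set.domRestrict {j : Fin m | j.val < N} v) := by
    rw [orthonormal_iff_ite]
    rintro ⟨a, ha⟩ ⟨b, hb⟩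
    change inner ℂ (v (Fin.castLE hN ⟨a.val, ha⟩)) (v (Fin.castLE hN ⟨b.val, hb⟩)) = _
    rw [hvc, hvc, LT.inner_toLp]
    have := congrFun (congrFun hY ⟨a.val, ha⟩) ⟨b.val, hb⟩
    rw [Matrix.mul_apply, Matrix.one_apply] at this
    simp only [conjTranspose_apply] at this
    unfold LT.ip
    rw [this]
    simp only [Subtype.mk.injEq, Fin.ext_iff]
  obtain ⟨b, hb⟩ := Orthonormal.exists_orthonormalBasis_extension_of_card_eq
    (by simp only [finrank_euclideanSpace]) ho
  refine ⟨Matrix.of fun i j => b j i, ?_, fun i j => ?_⟩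
  · rw [Matrix.mem_unitaryGroup_iff']
    ext i j
    have := orthonormal_iff_ite.mp b.orthonormal i j
    rw [Matrix.one_apply, ← this, Matrix.mul_apply, PiLp.inner_apply]
    refine Finset.sum_congr rfl fun l _ => ?_
    simp only [star_apply, of_apply, RCLike.inner_apply, RCLike.star_def]
    ring
  · rw [of_apply, hb _ (by simp), hvc]

theorem conj_restrict {N : ℕ} {e : Fin N → Fin m} (he : Function.Injective e) {U : Mat m m}
    {Y : Mat m N} (hY : ∀ i j, U i (e j) = Y i j) {D : Fin m → ℝ} {d : Fin N → ℝ}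
    (h0 : ∀ i, i ∉ Set.range e → D i = 0) (h1 : ∀ j, d j = D (e j)) :
    Y * dg d * Yᴴ = U * diagonal (fun i => ((D i : ℝ) : ℂ)) * Uᴴ := by
  ext a b
  simp only [dg, Matrix.mul_apply (M := _ * _), Matrix.mul_diagonal, conjTranspose_apply]
  refine Fintype.sum_of_injective e he _ _ (fun i hi => ?_) fun j => ?_
  · rw [h0 i hi]
    simp
  · rw [hY, hY, h1]

theorem wS_eq {ν : ℝ} (hν : 0 < ν) (a c x : ℝ) :
    wS ν (ν * a) c x = ν * (ν + 1) * a ^ 2 / Real.cosh (a * (x - c)) ^ 2 := by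
  have e : 1 / ν * (ν * a * (x - c)) = a * (x - c) := by field_simp
  have := Real.cosh_pos (a * (x - c))
  rw [wS, sech2, e]
  field_simp

theorem main_of (hX : EXC) (hE : EXT) (hS : STR) (hC : CONV) : MAIN := by
  classical
  intro γ h1 h2 m W hW'
  have hW : IsPotential (γ + 1 / 2) W := LT.isPotential_iff.mpr hW'
  have hν : 0 < γ - 1 / 2 := by linarith
  have e0 : 2 * ((γ - 1 / 2) / (γ + 1 / 2)) ^ (γ - 1 / 2) * LT.Lcl γ * LT.intTr (γ + 1 / 2) W
      = Cg γ * II γ W := by
    rw [Cg_eq h1]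
    rfl
  have e1 : γ + 1 / 2 = γ - 1 / 2 + 1 := by ring
  rw [e0, ← LT.rieszMean_eq]
  constructor
  · intro hq
    obtain ⟨N, lam, f, f', hN, hs, he⟩ := opt_sys hX hE h1 h2 hW hq
    obtain ⟨Y, k, c, hY, hk, hae⟩ := hS γ h1 h2 m N W lam f f' hW hs he
    obtain ⟨U, hU, hUY⟩ := unit_ext hN hY
    refine ⟨U, fun i => if h : i.val < N then k ⟨i.val, h⟩ / (γ - 1 / 2) else 0,
      fun i => if h : i.val < N then c ⟨i.val, h⟩ else 0, hU, fun i => ?_, ?_⟩
    · by_cases h : i.val < N
      · simp only [h, dif_pos]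
        exact (div_pos (hk _) hν).le
      · simp only [h, dif_neg, not_false_eq_true, le_refl]
    · filter_upwards [hae] with x hx
      rw [hx]
      refine conj_restrict (Fin.castLE_injective hN) hUY (fun i hi => ?_) fun j => ?_
      · have h : ¬ i.val < N := fun h => hi ⟨⟨i.val, h⟩, rfl⟩
        simp only [h, dif_neg, not_false_eq_true]
        simp
      · simp only [Fin.val_castLE, j.isLt, dif_pos, Fin.eta]
        rw [e1, ← wS_eq hν, mul_div_cancel₀ _ hν.ne']
  · rintro ⟨U, a, c, hU, ha, hae⟩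
    refine le_antisymm
      (rieszMean_le_of_main h1 (Cg_pos h1).le (fun N => mainHyp h1 h2 N m) hW) ?_
    set s : Finset (Fin m) := Finset.univ.filter fun i => 0 < a i with hs
    set e : Fin s.card → Fin m := fun j => s.orderEmbOfFin rfl j with he
    have hei : Function.Injective e := (s.orderEmbOfFin rfl).injective
    have hr : Set.range e = s := s.range_orderEmbOfFin rfl
    have hpos : ∀ j, 0 < a (e j) := fun j => by
      have : e j ∈ s := s.orderEmbOfFin_mem rfl j
      exact (Finset.mem_filter.mp this).2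
    have hY : (Matrix.of fun i j => U i (e j))ᴴ * (Matrix.of fun i j => U i (e j)) = 1 := by
      ext i j
      have := congrFun (congrFun (Matrix.mem_unitaryGroup_iff'.mp hU) (e i)) (e j)
      rw [Matrix.mul_apply, Matrix.one_apply] at this ⊢
      simpa only [hei.eq_iff, conjTranspose_apply, of_apply, star_apply] using this
    obtain ⟨lam, f, f', hsys, hsum⟩ := hC γ h1 m s.card W (Matrix.of fun i j => U i (e j))
      (fun j => (γ - 1 / 2) * a (e j)) (fun j => c (e j)) hY (fun j => mul_pos hν (hpos j)) (by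
        filter_upwards [hae] with x hx
        rw [hx]
        refine (conj_restrict hei (fun i j => rfl) (fun i hi => ?_) fun j => ?_).symm
        · have h : a i = 0 := by
            refine le_antisymm (not_lt.mp fun h => hi ?_) (ha i)
            rw [hr]
            exact Finset.mem_coe.mpr (Finset.mem_filter.mpr ⟨Finset.mem_univ _, h⟩)
          simp [h]
        · rw [wS_eq hν, ← e1])
    have := sys_le (γ := γ) hsys
    rwa [hsum] at this

end Vale.Agent.P371EF
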