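import Vale.Agent.P371E.Spec

/-!
The block `FORM` : the quadratic form of a potential is defined on `H¹`, and orthonormal systems
of eigenfunctions with negative eigenvalues are bounded uniformly in their size.
-/

namespace Vale.Agent.P371EF

open MeasureTheory Filter Topology Matrix Set
open Vale.Agent.P371 Vale.Agent.P371.G Vale.Agent.P371.PI Vale.Agent.P371E
open scoped ComplexOrder MatrixOrder Matrix.Norms.L2Operator

variable {m N : ℕ}

theorem le_add_rpow {p M w : ℝ} (hp : 1 ≤ p) (hM : 0 < M) (hw : 0 ≤ w) :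
    w ≤ M + M ^ (1 - p) * w ^ p := by
  have h0 : 0 ≤ M ^ (1 - p) * w ^ p := mul_nonneg (Real.rpow_nonneg hM.le _) (Real.rpow_nonneg hw _)
  rcases le_total w M with h | h
  · linarith
  · have hw0 : 0 < w := lt_of_lt_of_le hM h
    have h1 : w ^ (1 - p) ≤ M ^ (1 - p) := Real.rpow_le_rpow_of_nonpos hM h (by linarith)
    have h2 : w = w ^ (1 - p) * w ^ p := by
      rw [← Real.rpow_add hw0]
      simp
    have h3 : w ^ (1 - p) * w ^ p ≤ M ^ (1 - p) * w ^ p :=
      mul_le_mul_of_nonneg_right h1 (Real.rpow_nonneg hw _)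
    linarith

theorem norm_le_trPow {p M : ℝ} (hp : 1 ≤ p) (hM : 0 < M) {A : Mat m m} (hA : A.PosSemidef) :
    ‖A‖ ≤ m * M + M ^ (1 - p) * trPow p A := by
  refine (norm_le_trace hA).trans ?_
  rw [trPow, dif_pos hA.isHermitian, hA.isHermitian.trace_eq_sum_eigenvalues, Complex.re_sum]
  have h1 : (m : ℝ) * M = ∑ _i : Fin m, M := by simp
  rw [h1, Finset.mul_sum, ← Finset.sum_add_distrib]
  refine Finset.sum_le_sum fun i _ => ?_
  simp only [Complex.coe_algebraMap, Complex.ofReal_re]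
  exact le_add_rpow hp hM (hA.eigenvalues_nonneg i)

theorem form_le {p M : ℝ} (hp : 1 ≤ p) (hM : 0 < M) {A : Mat m m} (hA : A.PosSemidef)
    (u v : Vec m) {a b : ℝ} (ha : ‖u‖ ≤ a) (hb : ‖v‖ ≤ b) :
    ‖(inner ℂ u (Matrix.toEuclideanLin A v) : ℂ)‖ ≤
      m * M * (‖u‖ * ‖v‖) + M ^ (1 - p) * (a * b) * trPow p A := by
  have h1 := norm_inner_toEuclideanLin_le A u v
  have h2 := norm_le_trPow hp hM hA
  have h3 : 0 ≤ ‖u‖ * ‖v‖ := mul_nonneg (norm_nonneg _) (norm_nonneg _)
  have h4 : ‖u‖ * ‖v‖ ≤ a * b := mul_le_mul ha hb (norm_nonneg _) ((norm_nonneg _).trans ha)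
  have h5 : 0 ≤ M ^ (1 - p) * trPow p A :=
    mul_nonneg (Real.rpow_nonneg hM.le _) (trPow_nonneg' hA p)
  have h6 := mul_le_mul_of_nonneg_right h2 h3
  have h7 := mul_le_mul_of_nonneg_left h4 h5
  nlinarith

theorem integrable_formW {p : ℝ} (hp : 1 ≤ p) {W : ℝ → Mat m m} (hW : IsPotential p W)
    {g g' h h' : ℝ → Vec m} (hg : IsH1 g g') (hh : IsH1 h h') :
    Integrable (fun x => (inner ℂ (g x) (Matrix.toEuclideanLin (W x) (h x)) : ℂ)) volume := by
  obtain ⟨a, ha⟩ := hg.bounded_self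
  obtain ⟨b, hb⟩ := hh.bounded_self
  have h1 : Integrable (fun x => ‖g x‖ * ‖h x‖) volume := hg.memLp.norm.integrable_mul hh.memLp.norm
  have hf : ∀ j : Fin 2, IsH1 (![g, h] j) (![g', h'] j) := by
    intro j
    fin_cases j
    · exact hg
    · exact hh
  refine ((h1.const_mul ((m : ℝ) * 1)).add
    (hW.integrable.const_mul ((1 : ℝ) ^ (1 - p) * (a * b)))).mono'
    (aesm_form (locInt hp hW) hf 0 1) (Eventually.of_forall fun x => ?_)
  exact form_le hp one_pos (hW.posSemidef x) (g x) (h x) (ha x) (hb x)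

theorem sup_sq_le {u u' : ℝ → Vec m} (hu : IsH1 u u') (a : ℝ) :
    ‖u a‖ ^ 2 ≤ (∫ x, ‖u' x‖ ^ 2) + ∫ x, ‖u x‖ ^ 2 := by
  have h1 := outer_right hu (K := (1 : Mat m m)) Matrix.isHermitian_one a
  have e : ∀ v : Vec m, Matrix.toEuclideanLin (1 : Mat m m) v = v := fun v => by
    rw [Matrix.toLpLin_apply, Matrix.one_mulVec]
  simp only [e] at h1
  rw [inner_self_re', Complex.ofReal_re] at h1
  rw [← integral_add (integrable_norm_sq hu.memLp_deriv) (integrable_norm_sq hu.memLp)]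
  refine h1.trans (setIntegral_le_integral
    ((integrable_norm_sq hu.memLp_deriv).add (integrable_norm_sq hu.memLp))
    (Eventually.of_forall fun x => ?_))
  positivity

/-- a function with nonpositive energy is bounded by its `L²` norm -/
theorem sup_of_energy {p M : ℝ} (hp : 1 ≤ p) (hM : 0 < M) {W : ℝ → Mat m m}
    (hW : IsPotential p W) (hI : M ^ (1 - p) * ∫ x, trPow p (W x) ≤ 1 / 2)
    {u u' : ℝ → Vec m} (hu : IsH1 u u')
    (he : ∫ x, ‖u' x‖ ^ 2 ≤
      (∫ x, (inner ℂ (u x) (Matrix.toEuclideanLin (W x) (u x)) : ℂ)).re) (a : ℝ) :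
    ‖u a‖ ^ 2 ≤ (2 * (m * M) + 2) * ∫ x, ‖u x‖ ^ 2 := by
  set T := ∫ x, ‖u' x‖ ^ 2 with hT
  set S := ∫ x, ‖u x‖ ^ 2 with hS
  have hT0 : 0 ≤ T := integral_nonneg fun x => by positivity
  have hS0 : 0 ≤ S := integral_nonneg fun x => by positivity
  have hb : ∀ x, ‖u x‖ ≤ √(T + S) := fun x =>
    Real.le_sqrt_of_sq_le (sup_sq_le hu x)
  have hsq : √(T + S) * √(T + S) = T + S := Real.mul_self_sqrt (by linarith)
  have hi := integrable_norm_sq hu.memLp
  have h1 : ‖∫ x, (inner ℂ (u x) (Matrix.toEuclideanLin (W x) (u x)) : ℂ)‖ ≤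
      ∫ x, (m * M * ‖u x‖ ^ 2 + M ^ (1 - p) * (T + S) * trPow p (W x)) := by
    refine norm_integral_le_of_norm_le ((hi.const_mul _).add (hW.integrable.const_mul _))
      (Eventually.of_forall fun x => ?_)
    have := form_le hp hM (hW.posSemidef x) (u x) (u x) (hb x) (hb x)
    rwa [hsq, ← sq] at this
  rw [integral_add (hi.const_mul _) (hW.integrable.const_mul _), integral_const_mul,
    integral_const_mul] at h1
  have h2 := (Complex.re_le_norm _).trans h1
  have h3 : M ^ (1 - p) * (T + S) * ∫ x, trPow p (W x) ≤ (T + S) / 2 := by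
    have := mul_le_mul_of_nonneg_left hI (show 0 ≤ T + S by linarith)
    linarith
  have h4 := sup_sq_le hu a
  nlinarith

theorem isH1_comb {f f' : Fin N → ℝ → Vec m} (hf : ∀ j, IsH1 (f j) (f' j)) (c : Fin N → ℂ) :
    IsH1 (fun x => ∑ j, c j • f j x) (fun x => ∑ j, c j • f' j x) where
  memLp := memLp_finsetSum _ fun j _ => (hf j).memLp.const_smul (c j)
  memLp_deriv := memLp_finsetSum _ fun j _ => (hf j).memLp_deriv.const_smul (c j)
  ftc a b := by
    rw [intervalIntegral.integral_finsetSum (f := fun j x => c j • f' j x) fun j _ =>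
      ((hf j).intervalIntegrable_deriv a b).smul (c j), ← Finset.sum_sub_distrib]
    refine Finset.sum_congr rfl fun j _ => ?_
    rw [intervalIntegral.integral_smul, ← (hf j).ftc a b, smul_sub]

theorem integral_comb {F : Fin N → ℝ → ℂ} (hF : ∀ j, Integrable (F j) volume) (c : Fin N → ℂ) :
    ∫ x, ∑ j, c j * F j x = ∑ j, c j * ∫ x, F j x := by
  rw [integral_finsetSum _ fun j _ => (hF j).const_mul (c j)]
  refine Finset.sum_congr rfl fun j _ => ?_
  rw [integral_const_mul]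

theorem comb_inner {f f' : Fin N → ℝ → Vec m} (hf : ∀ j, IsH1 (f j) (f' j)) (ho : Orth f)
    (c : Fin N → ℂ) (j : Fin N) :
    ∫ x, (inner ℂ (∑ i, c i • f i x) (f j x) : ℂ) = starRingEnd ℂ (c j) := by
  simp only [sum_inner, inner_smul_left]
  rw [integral_comb fun i => integrable_inner_of_memLp (hf i).memLp (hf j).memLp]
  simp only [ho _ j, mul_ite, mul_one, mul_zero, Finset.sum_ite_eq', Finset.mem_univ, if_true]

theorem comb_norm {f f' : Fin N → ℝ → Vec m} (hf : ∀ j, IsH1 (f j) (f' j)) (ho : Orth f)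
    (c : Fin N → ℂ) : ∫ x, ‖∑ i, c i • f i x‖ ^ 2 = ∑ j, ‖c j‖ ^ 2 := by
  have hu := isH1_comb hf c
  have h1 := integral_inner_self (fun x => ∑ i, c i • f i x)
  have h2 : ∀ x, (inner ℂ (∑ i, c i • f i x) (∑ i, c i • f i x) : ℂ) =
      ∑ j, c j * (inner ℂ (∑ i, c i • f i x) (f j x) : ℂ) := fun x => by
    conv_lhs => rw [inner_sum]
    simp only [inner_smul_right]
  simp only [h2] at h1
  rw [integral_comb fun j => integrable_inner_of_memLp hu.memLp (hf j).memLp] at h1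
  simp only [comb_inner hf ho c, Complex.mul_conj, Complex.normSq_eq_norm_sq] at h1
  exact_mod_cast h1.symm

theorem comb_energy {p : ℝ} (hp : 1 ≤ p) {W : ℝ → Mat m m} (hW : IsPotential p W)
    {lam : Fin N → ℝ} {f f' : Fin N → ℝ → Vec m} (hs : Sys W lam f f') (c : Fin N → ℂ) :
    ∫ x, ‖∑ i, c i • f' i x‖ ^ 2 ≤
      (∫ x, (inner ℂ (∑ i, c i • f i x)
        (Matrix.toEuclideanLin (W x) (∑ i, c i • f i x)) : ℂ)).re := by
  have hf : ∀ j, IsH1 (f j) (f' j) := fun j => (hs.eig j).isH1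
  have hu := isH1_comb hf c
  have h1 := integral_inner_self (fun x => ∑ i, c i • f' i x)
  have h2 : ∀ x, (inner ℂ (∑ i, c i • f' i x) (∑ i, c i • f' i x) : ℂ) =
      ∑ j, c j * (inner ℂ (∑ i, c i • f' i x) (f' j x) : ℂ) := fun x => by
    conv_lhs => rw [inner_sum]
    simp only [inner_smul_right]
  have h3 : ∀ x, (inner ℂ (∑ i, c i • f i x)
      (Matrix.toEuclideanLin (W x) (∑ i, c i • f i x)) : ℂ) =
      ∑ j, c j * (inner ℂ (∑ i, c i • f i x) (Matrix.toEuclideanLin (W x) (f j x)) : ℂ) :=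
    fun x => by
      conv_lhs => rw [map_sum, inner_sum]
      simp only [map_smul, inner_smul_right]
  simp only [h2] at h1
  rw [integral_comb fun j => integrable_inner_of_memLp hu.memLp_deriv (hf j).memLp_deriv] at h1
  simp only [h3]
  rw [integral_comb fun j => integrable_formW hp hW hu (hf j)]
  have h4 : ∀ j, (∫ x, (inner ℂ (∑ i, c i • f i x)
      (Matrix.toEuclideanLin (W x) (f j x)) : ℂ)) =
      (∫ x, (inner ℂ (∑ i, c i • f' i x) (f' j x) : ℂ)) - (lam j : ℂ) * starRingEnd ℂ (c j) := by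
    intro j
    have := (hs.eig j).form_eq _ _ hu
    rw [comb_inner hf hs.on c j] at this
    linear_combination -this
  simp only [h4, mul_sub, Finset.sum_sub_distrib]
  rw [h1, Complex.sub_re, Complex.ofReal_re, Complex.re_sum]
  have h5 : ∑ j, (c j * ((lam j : ℂ) * starRingEnd ℂ (c j))).re ≤ 0 := by
    refine Finset.sum_nonpos fun j _ => ?_
    rw [mul_left_comm, Complex.mul_conj, ← Complex.ofReal_mul, Complex.ofReal_re]
    exact mul_nonpos_of_nonpos_of_nonneg (hs.neg j).le (Complex.normSq_nonneg _)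
  linarith

theorem psiM_apply (f : Fin N → ℝ → Vec m) (x : ℝ) (c : EuclideanSpace ℂ (Fin N)) :
    Matrix.toEuclideanLin (psiM f x) c = ∑ i, c i • f i x := by
  ext k
  rw [Matrix.toLpLin_apply]
  simp [psiM, Matrix.mulVec, dotProduct, mul_comm]

theorem exists_M {p : ℝ} (hp : 1 < p) (I : ℝ) : ∃ M : ℝ, 0 < M ∧ M ^ (1 - p) * I ≤ 1 / 2 := by
  have h1 : Tendsto (fun M : ℝ => M ^ (-(p - 1)) * I) atTop (𝓝 (0 * I)) :=
    (tendsto_rpow_neg_atTop (by linarith)).mul_const I
  rw [zero_mul] at h1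
  obtain ⟨M, hM1, hM2⟩ := ((eventually_gt_atTop 0).and
    (h1.eventually (ge_mem_nhds (show (0 : ℝ) < 1 / 2 by norm_num)))).exists
  exact ⟨M, hM1, by rwa [neg_sub] at hM2⟩

theorem form : FORM := by
  intro p hp m W hW
  refine ⟨fun g g' h h' hg hh => integrable_formW hp.le hW hg hh, ?_⟩
  obtain ⟨M, hM, hI⟩ := exists_M hp (∫ x, trPow p (W x))
  refine ⟨√(2 * (m * M) + 2), fun N lam f f' hs x => ?_⟩
  have hf : ∀ j, IsH1 (f j) (f' j) := fun j => (hs.eig j).isH1
  rw [Matrix.l2_opNorm_def]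
  refine ContinuousLinearMap.opNorm_le_bound _ (Real.sqrt_nonneg _) fun c => ?_
  have h1 := sup_of_energy hp.le hM hW hI (isH1_comb hf fun i => c i)
    (comb_energy hp.le hW hs fun i => c i) x
  rw [comb_norm hf hs.on, ← EuclideanSpace.norm_sq_eq, ← psiM_apply] at h1
  have h2 : 0 ≤ 2 * (m * M) + 2 := by positivity
  have h3 := Real.le_sqrt_of_sq_le h1
  rwa [Real.sqrt_mul h2, Real.sqrt_sq (norm_nonneg _)] at h3

end Vale.Agent.P371EF
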