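import Vale.Agent.P371E.Spec

/-!
Linear combinations of eigenfunctions.
-/

namespace Vale.Agent.P371EF

open MeasureTheory Filter Topology Matrix Set
open Vale.Agent.P371 Vale.Agent.P371.G Vale.Agent.P371.PI Vale.Agent.P371E
open scoped ComplexOrder

variable {m : ℕ} {W : ℝ → Mat m m}

/-- the form is defined on `H¹` -/
def Frm (W : ℝ → Mat m m) : Prop := ∀ g g' h h' : ℝ → Vec m, IsH1 g g' → IsH1 h h' →
  Integrable (fun x => (inner ℂ (g x) (Matrix.toEuclideanLin (W x) (h x)) : ℂ)) volume

theorem h1_smul {f f' : ℝ → Vec m} (hf : IsH1 f f') (c : ℂ) :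
    IsH1 (fun x => c • f x) (fun x => c • f' x) where
  memLp := hf.memLp.const_smul c
  memLp_deriv := hf.memLp_deriv.const_smul c
  ftc a b := by
    rw [intervalIntegral.integral_smul, ← hf.ftc, smul_sub]

theorem h1_add {f f' g g' : ℝ → Vec m} (hf : IsH1 f f') (hg : IsH1 g g') :
    IsH1 (fun x => f x + g x) (fun x => f' x + g' x) where
  memLp := hf.memLp.add hg.memLp
  memLp_deriv := hf.memLp_deriv.add hg.memLp_deriv
  ftc a b := by
    rw [intervalIntegral.integral_add (hf.intervalIntegrable_deriv a b)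
      (hg.intervalIntegrable_deriv a b), ← hf.ftc, ← hg.ftc]
    abel

theorem h1_zero : IsH1 (fun _ : ℝ => (0 : Vec m)) (fun _ => 0) where
  memLp := MemLp.zero
  memLp_deriv := MemLp.zero
  ftc a b := by simp

theorem eig_zero (μ : ℝ) : IsEigenfunction W μ (fun _ => (0 : Vec m)) (fun _ => 0) where
  isH1 := h1_zero
  form_eq g g' _ := by simp

theorem eig_smul {μ : ℝ} {f f' : ℝ → Vec m} (hf : IsEigenfunction W μ f f') (c : ℂ) :
    IsEigenfunction W μ (fun x => c • f x) (fun x => c • f' x) where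
  isH1 := h1_smul hf.isH1 c
  form_eq g g' hg := by
    have h := hf.form_eq g g' hg
    simp only [map_smul, inner_smul_right, integral_const_mul]
    linear_combination c * h

theorem eig_smul_of {lam μ : ℝ} {f f' : ℝ → Vec m} (hf : IsEigenfunction W lam f f') (c : ℂ)
    (hc : c ≠ 0 → lam = μ) : IsEigenfunction W μ (fun x => c • f x) (fun x => c • f' x) := by
  by_cases h : c = 0
  · subst h
    simpa only [zero_smul] using eig_zero (W := W) μ
  · exact hc h ▸ eig_smul hf c

theorem eig_add (hW : Frm W) {μ : ℝ} {f f' h h' : ℝ → Vec m} (hf : IsEigenfunction W μ f f')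
    (hh : IsEigenfunction W μ h h') :
    IsEigenfunction W μ (fun x => f x + h x) (fun x => f' x + h' x) where
  isH1 := h1_add hf.isH1 hh.isH1
  form_eq g g' hg := by
    have h1 := hf.form_eq g g' hg
    have h2 := hh.form_eq g g' hg
    simp only [map_add, inner_add_right]
    rw [integral_add (integrable_inner_of_memLp_self hg.memLp_deriv hf.isH1.memLp_deriv)
        (integrable_inner_of_memLp_self hg.memLp_deriv hh.isH1.memLp_deriv),
      integral_add (hW _ _ _ _ hg hf.isH1) (hW _ _ _ _ hg hh.isH1),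
      integral_add (integrable_inner_of_memLp_self hg.memLp hf.isH1.memLp)
        (integrable_inner_of_memLp_self hg.memLp hh.isH1.memLp)]
    linear_combination h1 + h2

theorem eig_sum (hW : Frm W) {μ : ℝ} {ι : Type*} (s : Finset ι) {f f' : ι → ℝ → Vec m}
    (hf : ∀ i, IsEigenfunction W μ (f i) (f' i)) :
    IsEigenfunction W μ (fun x => ∑ i ∈ s, f i x) (fun x => ∑ i ∈ s, f' i x) := by
  classical
  induction s using Finset.induction_on with
  | empty => simpa only [Finset.sum_empty] using eig_zero (W := W) μ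
  | insert a s ha ih =>
    simp only [Finset.sum_insert ha]
    exact eig_add hW (hf a) ih

/-- the inner product of `L²` -/
noncomputable def ip (f g : ℝ → Vec m) : ℂ := ∫ x, inner ℂ (f x) (g x)

theorem ip_conj (f g : ℝ → Vec m) : (starRingEnd ℂ) (ip f g) = ip g f := by
  unfold ip
  rw [← integral_conj]
  simp only [inner_conj_symm]

theorem ip_self (f : ℝ → Vec m) : ∃ s : ℝ, 0 ≤ s ∧ ip f f = (s : ℂ) :=
  ⟨_, integral_nonneg fun x => by positivity, integral_inner_self f⟩

theorem ip_smul_right (f g : ℝ → Vec m) (c : ℂ) : ip f (fun x => c • g x) = c * ip f g := by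
  unfold ip
  simp only [inner_smul_right, integral_const_mul]

theorem ip_smul_left (f g : ℝ → Vec m) (c : ℂ) :
    ip (fun x => c • f x) g = (starRingEnd ℂ) c * ip f g := by
  unfold ip
  simp only [inner_smul_left, integral_const_mul]

/-- eigenfunctions with different eigenvalues are orthogonal -/
theorem eq_of_ip_ne (hH : ∀ x, (W x).IsHermitian) {lam μ : ℝ} {f f' g g' : ℝ → Vec m}
    (hf : IsEigenfunction W lam f f') (hg : IsEigenfunction W μ g g') (h : ip f g ≠ 0) :
    lam = μ := by
  have h1 := hg.form_eq f f' hf.isH1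
  have h2 := congrArg (starRingEnd ℂ) (hf.form_eq g g' hg.isH1)
  rw [map_sub, map_mul, ← integral_conj, ← integral_conj, ← integral_conj,
    Complex.conj_ofReal] at h2
  simp only [inner_conj_symm, inner_symm_herm (hH _)] at h2
  have h3 : ((lam : ℂ) - μ) * ip f g = 0 := by
    unfold ip
    linear_combination h1 - h2
  have h4 := (mul_eq_zero.mp h3).resolve_right h
  exact_mod_cast sub_eq_zero.mp h4

/-- the component of `g` orthogonal to the system `f` -/
noncomputable def prj {n : ℕ} (f : Fin n → ℝ → Vec m) (c : Fin n → ℂ) (g : ℝ → Vec m) :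
    ℝ → Vec m := fun x => g x + ∑ i, (-c i) • f i x

theorem memLp_prj {n : ℕ} {f : Fin n → ℝ → Vec m} (hf : ∀ i, MemLp (f i) 2 volume)
    (c : Fin n → ℂ) {g : ℝ → Vec m} (hg : MemLp g 2 volume) : MemLp (prj f c g) 2 volume :=
  hg.add (memLp_finsetSum _ fun i _ => (hf i).const_smul (-c i))

theorem ip_prj {n : ℕ} {f : Fin n → ℝ → Vec m} (hf : ∀ i, MemLp (f i) 2 volume)
    (c : Fin n → ℂ) {g u : ℝ → Vec m} (hg : MemLp g 2 volume) (hu : MemLp u 2 volume) :
    ip u (prj f c g) = ip u g - ∑ i, c i * ip u (f i) := by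
  unfold ip prj
  simp only [inner_add_right, inner_sum, inner_smul_right]
  have hi : ∀ i, Integrable (fun x => -c i * (inner ℂ (u x) (f i x) : ℂ)) volume := fun i =>
    (integrable_inner_of_memLp_self hu (hf i)).const_mul _
  rw [integral_add (integrable_inner_of_memLp_self hu hg) (integrable_finsetSum _ fun i _ => hi i),
    integral_finsetSum _ fun i _ => hi i, sub_eq_add_neg, ← Finset.sum_neg_distrib]
  simp only [neg_mul, integral_neg, integral_const_mul]

theorem ip_prj_zero {n : ℕ} {f : Fin n → ℝ → Vec m} (hf : ∀ i, MemLp (f i) 2 volume)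
    (ho : Orth f) {g : ℝ → Vec m} (hg : MemLp g 2 volume) (j : Fin n) :
    ip (f j) (prj f (fun i => ip (f i) g) g) = 0 := by
  rw [ip_prj hf _ hg (hf j)]
  have : ∀ i, ip (f j) (f i) = if j = i then 1 else 0 := fun i => ho j i
  simp only [this, mul_ite, mul_one, mul_zero, Finset.sum_ite_eq, Finset.mem_univ, if_true,
    sub_self]

theorem ip_prj_self {n : ℕ} {f : Fin n → ℝ → Vec m} (hf : ∀ i, MemLp (f i) 2 volume)
    {g : ℝ → Vec m} (hg : MemLp g 2 volume) (hn : ip g g = 1) :
    ip g (prj f (fun i => ip (f i) g) g) = ((1 - ∑ i, ‖ip (f i) g‖ ^ 2 : ℝ) : ℂ) := by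
  rw [ip_prj hf _ hg hg, hn]
  push_cast
  congr 1
  refine Finset.sum_congr rfl fun i _ => ?_
  rw [← ip_conj (f i) g, Complex.mul_conj, Complex.normSq_eq_norm_sq]
  push_cast
  rfl

theorem ip_prj_prj {n : ℕ} {f : Fin n → ℝ → Vec m} (hf : ∀ i, MemLp (f i) 2 volume)
    (ho : Orth f) {g : ℝ → Vec m} (hg : MemLp g 2 volume) (hn : ip g g = 1) :
    ip (prj f (fun i => ip (f i) g) g) (prj f (fun i => ip (f i) g) g)
      = ((1 - ∑ i, ‖ip (f i) g‖ ^ 2 : ℝ) : ℂ) := by
  have hp := memLp_prj hf (fun i => ip (f i) g) hg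
  rw [ip_prj hf _ hg hp]
  have h0 : ∀ i, ip (prj f (fun i => ip (f i) g) g) (f i) = 0 := fun i => by
    rw [← ip_conj, ip_prj_zero hf ho hg, map_zero]
  simp only [h0, mul_zero, Finset.sum_const_zero, sub_zero]
  rw [← ip_conj, ip_prj_self hf hg hn, Complex.conj_ofReal]

/-- Bessel's inequality -/
theorem bessel {n : ℕ} {f : Fin n → ℝ → Vec m} (hf : ∀ i, MemLp (f i) 2 volume)
    (ho : Orth f) {g : ℝ → Vec m} (hg : MemLp g 2 volume) (hn : ip g g = 1) :
    ∑ i, ‖ip (f i) g‖ ^ 2 ≤ 1 := by
  obtain ⟨s, hs, h⟩ := ip_self (prj f (fun i => ip (f i) g) g)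
  rw [ip_prj_prj hf ho hg hn] at h
  have := Complex.ofReal_injective h
  linarith

end Vale.Agent.P371EF
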