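import Vale.Agent.P371EF.Rest
import Vale.Agent.P371ED.Apx
import Vale.Agent.P371EP.PW
import Vale.Agent.P371EP.Col
import Vale.Agent.P371EG.Rr
import Vale.Agent.P371EX.Main

/-!
The equality cases of the sharp one-dimensional Lieb-Thirring inequality.
-/

namespace Vale.Agent.P371EF

open Vale.Agent.P371E

theorem apx : APX := P371ED.apx_of (P371ED.p2d P371EP.pw) P371ED.t2d

theorem main : MAIN := main_of_rest apx P371EP.col (P371EX.exc_of P371EG.rr apx form)

end Vale.Agent.P371EF
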