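import Vale.Agent.P371EF.Ext
import Vale.Agent.P371EF.Fin
import Vale.Agent.P371EF.Form
import Vale.Agent.P371EG.Eig
import Vale.Agent.P371EL.Lim
import Vale.Agent.P371EO.Ode
import Vale.Agent.P371ES.Conv
import Vale.Agent.P371ET.Pt
import Vale.Agent.P371ET.Str

/-!
The equality cases, from the approximants, the columns and the exclusion step.
-/

namespace Vale.Agent.P371EF

open Vale.Agent.P371E

theorem main_of_rest (hA : APX) (hC : COL) (hX : EXC) : MAIN :=
  main_of hX (ext_of form)
    (P371ET.str_of (P371EL.lim_of hA P371EO.ode hC) P371ET.pt P371ES.sol P371EG.eig) P371ES.conv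

end Vale.Agent.P371EF
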